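import Vale.Agent.Lib.P090.Final

/-!
Negative answer to Kalton's question: there is a countable uniformly discrete metric space whose
Lipschitz-free space fails the bounded approximation property.
-/

theorem Vale.Agent.Results.P090.A_main.result :
    ∃ (M : Type) (_ : MetricSpace M) (o : M), Countable M ∧
      (∃ θ : ℝ, 0 < θ ∧ ∀ x y : M, x ≠ y → θ ≤ dist x y) ∧
        ¬ ∃ lam : ℝ, Vale.Agent.Lib.P090.HasBAP lam ↥(Vale.Agent.Lib.P090.lipFree M o) :=
  Vale.Agent.Lib.P090.exists_uniformly_discrete_not_bap
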